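import Vale.Agent.P181.SZR3.Col
import Vale.Agent.P181.SZR5b.Mark
import Vale.Agent.P181.SZT0.Tr
import Vale.Agent.P181.Z.H503.Pieri

set_option autoImplicit false

/-!
# P181: one new letter, put as a horizontal strip

`nn m mu k ≤ nn m nu (a ::ₘ k)` if `nu / mu` is a horizontal strip of size `a` and `a ∉ k`.
-/

open MvPolynomial

namespace Vale.Agent.P181.H467

open Vale.Agent.P181.T4 (rowOp rowOp_apply mem_HW)
open Vale.Agent.P181.SZR3 (rowD rowD_X rowD_eq coeff_X_mul_pderiv sum_single_col sum_single_row)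
open Vale.Agent.P181.SZR5b (rc rc_inj rowOp_rename colW col_iff map_get map_univ_val)
open Vale.Agent.P181.Z.H503P (GlRel GG T1 T1_apply TT YVec TT_HW TT_mem cc GG_lt GG_self)
open Vale.Agent.P181.SZ

variable {m : ℕ} {σ : Type}

section ops

lemma rowD_comm (a b c d : Fin m) (f : MvPolynomial (Fin m × σ) ℂ) :
    rowD a b (rowD c d f) = rowD c d (rowD a b f) + (if b = c then rowD a d f else 0) -
      (if d = a then rowD c b f else 0) := by
  have h : ⁅(rowD a b : Derivation ℂ (MvPolynomial (Fin m × σ) ℂ) (MvPolynomial (Fin m × σ) ℂ)),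
      (rowD c d : Derivation ℂ (MvPolynomial (Fin m × σ) ℂ) (MvPolynomial (Fin m × σ) ℂ))⁆ =
      (if b = c then rowD a d else 0) - (if d = a then rowD c b else 0) := by
    apply derivation_ext
    rintro ⟨k, l⟩
    rw [Derivation.commutator_apply, rowD_X, rowD_X, Derivation.sub_apply]
    have e1 : rowD a b (if k = d then X (c, l) else 0 : MvPolynomial (Fin m × σ) ℂ) =
        if b = c then (if k = d then X (a, l) else 0) else 0 := by
      by_cases h1 : k = d
      · rw [if_pos h1, if_pos h1, rowD_X]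
        simp only [eq_comm]
      · rw [if_neg h1, if_neg h1, map_zero, ite_self]
    have e2 : rowD c d (if k = b then X (a, l) else 0 : MvPolynomial (Fin m × σ) ℂ) =
        if d = a then (if k = b then X (c, l) else 0) else 0 := by
      by_cases h1 : k = b
      · rw [if_pos h1, if_pos h1, rowD_X]
        simp only [eq_comm]
      · rw [if_neg h1, if_neg h1, map_zero, ite_self]
    have e3 : (if b = c then (rowD a d : Derivation ℂ (MvPolynomial (Fin m × σ) ℂ)
        (MvPolynomial (Fin m × σ) ℂ)) else 0) (X (k, l)) =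
        if b = c then (if k = d then X (a, l) else 0) else 0 := by
      by_cases h1 : b = c
      · rw [if_pos h1, if_pos h1, rowD_X]
      · rw [if_neg h1, if_neg h1]
        rfl
    have e4 : (if d = a then (rowD c b : Derivation ℂ (MvPolynomial (Fin m × σ) ℂ)
        (MvPolynomial (Fin m × σ) ℂ)) else 0) (X (k, l)) =
        if d = a then (if k = b then X (c, l) else 0) else 0 := by
      by_cases h1 : d = a
      · rw [if_pos h1, if_pos h1, rowD_X]
      · rw [if_neg h1, if_neg h1]
        rfl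
    rw [e1, e2, e3, e4]
  have h1 := congrArg (fun D => D f) h
  simp only [Derivation.commutator_apply, Derivation.sub_apply] at h1
  have e3 : (if b = c then (rowD a d : Derivation ℂ (MvPolynomial (Fin m × σ) ℂ)
      (MvPolynomial (Fin m × σ) ℂ)) else 0) f = if b = c then rowD a d f else 0 := by
    split_ifs <;> rfl
  have e4 : (if d = a then (rowD c b : Derivation ℂ (MvPolynomial (Fin m × σ) ℂ)
      (MvPolynomial (Fin m × σ) ℂ)) else 0) f = if d = a then rowD c b f else 0 := by
    split_ifs <;> rfl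
  rw [e3, e4] at h1
  linear_combination h1

/-- The row operators with natural numbers as indices. -/
noncomputable def EN (m : ℕ) (σ : Type) (a b : ℕ) :
    MvPolynomial (Fin m × σ) ℂ →ₗ[ℂ] MvPolynomial (Fin m × σ) ℂ :=
  if h : a < m ∧ b < m then
    (rowD ⟨a, h.1⟩ ⟨b, h.2⟩ : Derivation ℂ (MvPolynomial (Fin m × σ) ℂ)
      (MvPolynomial (Fin m × σ) ℂ)).toLinearMap else 0

lemma EN_of {a b : ℕ} (ha : a < m) (hb : b < m) (x : MvPolynomial (Fin m × σ) ℂ) :
    EN m σ a b x = rowD ⟨a, ha⟩ ⟨b, hb⟩ x := by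
  rw [EN, dif_pos ⟨ha, hb⟩]
  rfl

lemma EN_leib (a b : ℕ) (x y : MvPolynomial (Fin m × σ) ℂ) :
    EN m σ a b (x * y) = EN m σ a b x * y + x * EN m σ a b y := by
  by_cases h : a < m ∧ b < m
  · rw [EN_of h.1 h.2, EN_of h.1 h.2, EN_of h.1 h.2, Derivation.leibniz, smul_eq_mul, smul_eq_mul]
    ring
  · rw [EN, dif_neg h]
    simp

lemma EN_rel : GlRel m (EN m σ) := by
  intro a b c d ha hb hc hd x
  rw [EN_of ha hb, EN_of hc hd, EN_of hc hd, EN_of ha hb, rowD_comm, EN_of ha hd, EN_of hc hb]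
  simp only [Fin.mk.injEq]

/-- The new column. -/
noncomputable def yv (m : ℕ) (σ : Type) (l : ℕ) : MvPolynomial (Fin m × Option σ) ℂ :=
  if h : l < m then X (⟨l, h⟩, none) else 0

lemma yv_of {l : ℕ} (h : l < m) : yv m σ l = X (⟨l, h⟩, none) := dif_pos h

lemma yv_YVec {i : ℕ} (hi : i < m) : YVec m i (EN m (Option σ)) (fun _ => 0) (yv m σ) := by
  refine ⟨fun r hr j hj => ?_, fun a ha j hj => ?_⟩
  · rw [EN_of (by omega) hr, yv_of (show j < m by omega), rowD_X]
    by_cases h : r + 1 = j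
    · rw [if_pos (Fin.ext h.symm), if_pos h, yv_of (by omega)]
    · rw [if_neg (fun hh => h (congrArg Fin.val hh).symm), if_neg h]
  · rw [EN_of ha ha, yv_of (show j < m by omega), rowD_X]
    by_cases h : a = j
    · subst h
      rw [if_pos rfl, if_pos rfl, add_zero, one_smul]
    · rw [if_neg (fun hh => h (congrArg Fin.val hh).symm), if_neg h, add_zero, zero_smul]

end ops

section stage

/-- The weight after the last `k` rows have been filled. -/
noncomputable def th (m : ℕ) (M N : ℕ → ℕ) (k j : ℕ) : ℂ := if m ≤ j + k then N j else M j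

/-- Filling the last `k` rows. -/
noncomputable def St (m : ℕ) (σ : Type) (M N : ℕ → ℕ) :
    ℕ → (MvPolynomial (Fin m × Option σ) ℂ →ₗ[ℂ] MvPolynomial (Fin m × Option σ) ℂ)
  | 0 => LinearMap.id
  | k + 1 => TT (EN m (Option σ)) (th m M N k) (fun _ => 0) (m - 1 - k) (yv m σ)
      (N (m - 1 - k) - M (m - 1 - k)) ∘ₗ St m σ M N k

lemma HW_congr {A : Type} [AddCommGroup A] [Module ℂ A] {h : ℕ} {E : ℕ → ℕ → A →ₗ[ℂ] A}
    {θ θ' : ℕ → ℂ} (ht : ∀ a, a < h → θ a = θ' a) {x : A} (hx : x ∈ Z.H503P.HW h E θ) :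
    x ∈ Z.H503P.HW h E θ' :=
  ⟨hx.1, fun a ha => by rw [hx.2 a ha, ht a ha]⟩

lemma St_HW {M N : ℕ → ℕ} (h1 : ∀ i, i < m → M i ≤ N i)
    (h2 : ∀ l i, l < i → i < m → N i ≤ M l) {x : MvPolynomial (Fin m × Option σ) ℂ}
    (hx : x ∈ Z.H503P.HW m (EN m (Option σ)) (fun a => (M a : ℂ))) :
    ∀ k, k ≤ m → St m σ M N k x ∈ Z.H503P.HW m (EN m (Option σ)) (th m M N k) := by
  intro k
  induction k with
  | zero =>
    intro _
    refine HW_congr (fun a ha => ?_) hx
    rw [th, if_neg (by omega)]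
  | succ k ih =>
    intro hk
    have h3 := ih (by omega)
    have hi : m - 1 - k < m := by omega
    have h4 := TT_HW EN_rel EN_leib hi h3 (yv_YVec (σ := σ) hi)
      (N (m - 1 - k) - M (m - 1 - k)) (fun s hs l hl => by
        have e1 : th m M N k l = M l := by rw [th, if_neg (by omega)]
        have e2 : th m M N k (m - 1 - k) = M (m - 1 - k) := by rw [th, if_neg (by omega)]
        have h5 := h2 l (m - 1 - k) hl hi
        rw [cc, e1, e2]
        obtain ⟨t, ht⟩ := Nat.exists_eq_add_of_le (show M (m - 1 - k) + s + 1 ≤ M l by omega)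
        obtain ⟨t', ht'⟩ := Nat.exists_eq_add_of_le (show l + 1 ≤ m - 1 - k by omega)
        rw [ht]
        rw [ht'] at *
        push_cast
        have e3 : ((M (l + 1 + t') : ℂ) + s + 1 + t + s * 0) - (M (l + 1 + t') + s * (1 + 0)) +
            ((l : ℂ) + 1 + t' - l - 1) = ((1 + t + t' : ℕ) : ℂ) := by
          push_cast
          ring
        rw [e3, Nat.cast_ne_zero]
        omega)
    rw [St, LinearMap.comp_apply]
    refine HW_congr (fun a ha => ?_) h4
    by_cases h5 : a = m - 1 - k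
    · rw [if_pos h5, h5, th, th, if_neg (by omega), if_pos (by omega)]
      have h6 := h1 (m - 1 - k) hi
      rw [Nat.cast_sub h6]
      ring
    · rw [if_neg h5, th, th]
      by_cases h6 : m ≤ a + k
      · rw [if_pos h6, if_pos (by omega)]
        ring
      · rw [if_neg h6, if_neg (by omega)]
        ring

/-- The specialization of the first entries of the new column. -/
noncomputable def psi (m : ℕ) (σ : Type) (t : ℕ) :
    MvPolynomial (Fin m × Option σ) ℂ →ₐ[ℂ] MvPolynomial (Fin m × Option σ) ℂ :=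
  aeval fun p => if p.2 = none ∧ (p.1 : ℕ) < t then 0 else X p

lemma psi_X (t : ℕ) (p : Fin m × Option σ) :
    psi m σ t (X p) = if p.2 = none ∧ (p.1 : ℕ) < t then 0 else X p := aeval_X _ _

lemma psi_yv_lt {t l : ℕ} (h : l < t) : psi m σ t (yv m σ l) = 0 := by
  rw [yv]
  split_ifs with h1
  · rw [psi_X, if_pos ⟨rfl, h⟩]
  · exact map_zero _

lemma psi_yv_ge {t l : ℕ} (h : t ≤ l) : psi m σ t (yv m σ l) = yv m σ l := by
  rw [yv]
  split_ifs with h1
  · rw [psi_X, if_neg (fun hh => absurd hh.2 (by simpa using h))]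
  · exact map_zero _

lemma psi_psi (t : ℕ) (x : MvPolynomial (Fin m × Option σ) ℂ) :
    psi m σ (t + 1) (psi m σ t x) = psi m σ (t + 1) x := by
  have h : (psi m σ (t + 1)).comp (psi m σ t) = psi m σ (t + 1) := by
    apply algHom_ext
    intro p
    rw [AlgHom.comp_apply, psi_X, psi_X]
    by_cases h : p.2 = none ∧ (p.1 : ℕ) < t
    · rw [if_pos h, if_pos ⟨h.1, by omega⟩, map_zero]
    · rw [if_neg h, psi_X]
  exact congrArg (fun g => g x) h

lemma psi_rename (t : ℕ) (f : MvPolynomial (Fin m × σ) ℂ) :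
    psi m σ t (rename (rc m some) f) = rename (rc m some) f := by
  have h : (psi m σ t).comp (rename (rc m some)) = rename (rc m some) := by
    apply algHom_ext
    intro p
    rw [AlgHom.comp_apply, rename_X, psi_X, if_neg (fun hh => by simpa [rc] using hh.1)]
  exact congrArg (fun g => g f) h

lemma psi_T1 (c : ℕ → ℂ) {i : ℕ} (x : MvPolynomial (Fin m × Option σ) ℂ) :
    psi m σ i (T1 (EN m (Option σ)) c i (yv m σ) x) = psi m σ i x * yv m σ i := by
  rw [T1_apply, map_sum, Finset.sum_range_succ, Finset.sum_eq_zero, zero_add, map_mul, GG_self,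
    psi_yv_ge le_rfl]
  · rfl
  · intro l hl
    rw [map_mul, psi_yv_lt (Finset.mem_range.1 hl), mul_zero]

lemma psi_TT (θ d : ℕ → ℂ) {i : ℕ} (x : MvPolynomial (Fin m × Option σ) ℂ) (k : ℕ) :
    psi m σ i (TT (EN m (Option σ)) θ d i (yv m σ) k x) = psi m σ i x * yv m σ i ^ k := by
  induction k with
  | zero => rw [TT, LinearMap.id_apply, pow_zero, mul_one]
  | succ k ih => rw [TT, LinearMap.comp_apply, psi_T1, ih, pow_succ, mul_assoc]

lemma St_ne (M N : ℕ → ℕ) {f : MvPolynomial (Fin m × σ) ℂ} (hf : f ≠ 0) :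
    ∀ k, k ≤ m → psi m σ (m - k) (St m σ M N k (rename (rc m some) f)) ≠ 0 := by
  intro k
  induction k with
  | zero =>
    intro _
    rw [St, LinearMap.id_apply, psi_rename]
    exact fun h => hf (rename_injective _ (rc_inj (Option.some_injective _))
      (h.trans (map_zero _).symm))
  | succ k ih =>
    intro hk
    have h1 := ih (by omega)
    have e : m - (k + 1) = m - 1 - k := by omega
    rw [e, St, LinearMap.comp_apply, psi_TT]
    refine mul_ne_zero (fun h => h1 ?_) (pow_ne_zero _ ?_)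
    · have e2 : m - k = m - 1 - k + 1 := by omega
      rw [e2, ← psi_psi, h, map_zero]
    · rw [yv_of (by omega)]
      exact X_ne_zero _

end stage

section deg

variable [Fintype σ]

lemma coeff_rowD_self (i : Fin m) (f : MvPolynomial (Fin m × σ) ℂ) (v : Fin m × σ →₀ ℕ) :
    coeff v (rowD i i f) = ((∑ j, v (i, j) : ℕ) : ℂ) * coeff v f := by
  classical
  rw [rowD_eq, rowOp_apply, coeff_sum]
  push_cast
  rw [Finset.sum_mul]
  refine Finset.sum_congr rfl (fun j _ => ?_)
  rw [coeff_X_mul']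
  by_cases h : (i, j) ∈ v.support
  · have h0 : v (i, j) ≠ 0 := Finsupp.mem_support_iff.1 h
    rw [if_pos h, coeff_pderiv]
    have e : v - Finsupp.single (i, j) 1 + Finsupp.single (i, j) 1 = v := by
      apply tsub_add_cancel_of_le
      rw [Finsupp.single_le_iff]
      omega
    rw [e, mul_comm]
    congr 1
    rw [Finsupp.tsub_apply, Finsupp.single_eq_same, Nat.cast_sub (by omega)]
    push_cast
    ring
  · rw [if_neg h, Finsupp.notMem_support_iff.1 h]
    simp

/-- Highest weight polynomials in the two languages. -/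
lemma mem_T4_HW {nu : Fin m → ℕ} {θ : ℕ → ℂ} (hθ : ∀ i : Fin m, θ i = nu i)
    {f : MvPolynomial (Fin m × σ) ℂ} :
    f ∈ T4.HW m σ nu ↔ f ∈ Z.H503P.HW m (EN m σ) θ := by
  rw [mem_HW]
  constructor
  · rintro ⟨h1, h2⟩
    refine ⟨fun a b hab hb => ?_, fun a ha => ?_⟩
    · rw [EN_of (by omega) hb, rowD_eq]
      exact h2 _ _ (Fin.mk_lt_mk.2 hab)
    · rw [EN_of ha ha]
      ext v
      rw [coeff_rowD_self, coeff_smul, smul_eq_mul]
      by_cases h : coeff v f = 0
      · rw [h, mul_zero, mul_zero]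
      · rw [h1 v h, ← hθ]
  · rintro ⟨h1, h2⟩
    refine ⟨fun v hv i => ?_, fun s i h => ?_⟩
    · have h3 := h2 i i.2
      rw [EN_of i.2 i.2] at h3
      have h4 := congrArg (coeff v) h3
      rw [coeff_rowD_self, coeff_smul, smul_eq_mul, hθ] at h4
      exact_mod_cast mul_right_cancel₀ hv h4
    · have h3 := h1 s i h i.2
      rw [EN_of s.2 i.2, rowD_eq] at h3
      exact h3

/-- The polynomials with the column degrees `d`. -/
noncomputable def PC (m : ℕ) (σ : Type) [Fintype σ] (d : σ → ℕ) :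
    Submodule ℂ (MvPolynomial (Fin m × σ) ℂ) := by
  classical exact weightedHomogeneousSubmodule ℂ (colW m σ) d

lemma mem_PC {d : σ → ℕ} {f : MvPolynomial (Fin m × σ) ℂ} :
    f ∈ PC m σ d ↔ ∀ v, coeff v f ≠ 0 → ∀ j, ∑ i, v (i, j) = d j := by
  classical
  rw [PC, mem_weightedHomogeneousSubmodule, ← col_iff]

lemma PC_rowD {d : σ → ℕ} {f : MvPolynomial (Fin m × σ) ℂ} (hf : f ∈ PC m σ d) (s i : Fin m) :
    rowD s i f ∈ PC m σ d := by
  classical
  rw [mem_PC] at hf ⊢
  intro v hv k
  rw [rowD_eq, rowOp_apply, coeff_sum] at hv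
  obtain ⟨j, _, hj⟩ := Finset.exists_ne_zero_of_sum_ne_zero hv
  obtain ⟨u, rfl, hu⟩ := coeff_X_mul_pderiv _ _ f v hj
  have h1 := hf _ hu k
  simp only [Finsupp.add_apply, Finset.sum_add_distrib, sum_single_col] at h1 ⊢
  exact h1

lemma PC_EN {d : σ → ℕ} {f : MvPolynomial (Fin m × σ) ℂ} (hf : f ∈ PC m σ d) (a b : ℕ) :
    EN m σ a b f ∈ PC m σ d := by
  by_cases h : a < m ∧ b < m
  · rw [EN_of h.1 h.2]
    exact PC_rowD hf _ _
  · rw [EN, dif_neg h]
    exact zero_mem _

lemma PC_mul {d d' e : σ → ℕ} {f g : MvPolynomial (Fin m × σ) ℂ} (hf : f ∈ PC m σ d)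
    (hg : g ∈ PC m σ d') (he : ∀ j, e j = d j + d' j) : f * g ∈ PC m σ e := by
  classical
  rw [PC, mem_weightedHomogeneousSubmodule] at hf hg ⊢
  have : e = d + d' := funext he
  rw [this]
  exact hf.mul hg

/-- The column degrees with the new column. -/
def dd (d0 : σ → ℕ) (s : ℕ) : Option σ → ℕ := fun o => o.elim s d0

lemma PC_yv {l : ℕ} : yv m σ l ∈ PC m (Option σ) (dd (fun _ => 0) 1) := by
  classical
  rw [yv]
  split_ifs with h
  · rw [mem_PC]
    intro v hv o
    rw [coeff_X] at hv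
    have h1 : Finsupp.single ((⟨l, h⟩, none) : Fin m × Option σ) 1 = v := by
      by_contra h1
      rw [if_neg h1] at hv
      exact hv rfl
    rw [← h1, sum_single_col]
    rcases o with _ | j
    · rw [if_pos rfl]
      rfl
    · rw [if_neg (by simp)]
      rfl
  · exact zero_mem _

lemma PC_rename {d0 : σ → ℕ} {f : MvPolynomial (Fin m × σ) ℂ} (hf : f ∈ PC m σ d0) :
    rename (rc m some) f ∈ PC m (Option σ) (dd d0 0) := by
  rw [mem_PC] at hf ⊢
  exact SZR5b.col_rename (Option.some_injective _) (fun j => rfl) (fun o ho => by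
    rcases o with _ | j
    · rfl
    · exact absurd ⟨j, rfl⟩ ho) hf

lemma St_PC {M N : ℕ → ℕ} {d0 : σ → ℕ} {x : MvPolynomial (Fin m × Option σ) ℂ}
    (hx : x ∈ PC m (Option σ) (dd d0 0)) : ∀ k, k ≤ m → St m σ M N k x ∈ PC m (Option σ)
      (dd d0 (∑ i ∈ Finset.Ico (m - k) m, (N i - M i))) := by
  intro k
  induction k with
  | zero =>
    intro _
    rw [Nat.sub_zero, Finset.Ico_self, Finset.sum_empty]
    exact hx
  | succ k ih =>
    intro hk
    have h1 := ih (by omega)
    have h2 := TT_mem (E := EN m (Option σ)) (θ := th m M N k) (d := fun _ => 0)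
      (i := m - 1 - k) (y := yv m σ)
      (fun s => PC m (Option σ) (dd d0 (s + ∑ i ∈ Finset.Ico (m - k) m, (N i - M i))))
      (fun s x hx a b => PC_EN hx a b)
      (fun s x hx l _ => PC_mul hx PC_yv (fun o => by
        rcases o with _ | j
        · simp only [dd, Option.elim]
          ring
        · simp only [dd, Option.elim, add_zero])) (x := St m σ M N k x)
      (by rw [zero_add]; exact h1) (N (m - 1 - k) - M (m - 1 - k))
    rw [St, LinearMap.comp_apply]
    have e : ∑ i ∈ Finset.Ico (m - (k + 1)) m, (N i - M i) =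
        (N (m - 1 - k) - M (m - 1 - k)) + ∑ i ∈ Finset.Ico (m - k) m, (N i - M i) := by
      rw [Finset.sum_eq_sum_Ico_succ_bot (show m - (k + 1) < m by omega)]
      have e1 : m - (k + 1) = m - 1 - k := by omega
      have e2 : m - 1 - k + 1 = m - k := by omega
      rw [e1, e2]
    rw [e]
    exact h2

end deg

section sym

lemma rho_EN {τ : Type} (e : σ → τ) (a b : ℕ) (x : MvPolynomial (Fin m × σ) ℂ) [Fintype σ]
    [Fintype τ] : rename (rc m e) (EN m σ a b x) = EN m τ a b (rename (rc m e) x) := by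
  by_cases h : a < m ∧ b < m
  · rw [EN_of h.1 h.2, EN_of h.1 h.2, rowD_eq, rowD_eq, rowOp_rename]
  · rw [EN, EN, dif_neg h, dif_neg h]
    exact map_zero _

variable {A : Type} [CommRing A] [Algebra ℂ A] {E : ℕ → ℕ → A →ₗ[ℂ] A} {c θ d : ℕ → ℂ} {i : ℕ}

lemma rho_GG (ρ : A →ₐ[ℂ] A) (h : ∀ a b x, ρ (E a b x) = E a b (ρ x)) (x : A) :
    ∀ e l, l + e = i → ρ (GG E c i l x) = GG E c i l (ρ x) := by
  intro e
  induction e using Nat.strong_induction_on with
  | _ e ih =>
    intro l hl
    by_cases hli : l < i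
    · rw [GG_lt hli, GG_lt hli, map_neg, map_smul, map_sum]
      congr 2
      refine Finset.sum_congr rfl (fun k hk => ?_)
      obtain ⟨h1, h2⟩ := Finset.mem_Ioc.1 hk
      rw [h, ih (i - k) (by omega) k (by omega)]
    · have : l = i := by omega
      rw [this, GG_self]
      rfl

lemma rho_TT (ρ : A →ₐ[ℂ] A) (h : ∀ a b x, ρ (E a b x) = E a b (ρ x)) {y : ℕ → A}
    (hy : ∀ l, ρ (y l) = y l) (x : A) (k : ℕ) :
    ρ (TT E θ d i y k x) = TT E θ d i y k (ρ x) := by
  induction k with
  | zero => rfl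
  | succ k ih =>
    rw [TT, LinearMap.comp_apply, LinearMap.comp_apply, T1_apply, T1_apply, map_sum]
    refine Finset.sum_congr rfl (fun l hl => ?_)
    have := Finset.mem_range.1 hl
    rw [map_mul, hy, rho_GG ρ h _ (i - l) l (by omega), ih]

end sym

section main

variable [Fintype σ]

/-- The map. -/
noncomputable def Phi (m : ℕ) (σ : Type) (M N : ℕ → ℕ) :
    MvPolynomial (Fin m × σ) ℂ →ₗ[ℂ] MvPolynomial (Fin m × Option σ) ℂ :=
  St m σ M N m ∘ₗ (rename (rc m some)).toLinearMap

omit [Fintype σ] in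
lemma Phi_apply (M N : ℕ → ℕ) (f : MvPolynomial (Fin m × σ) ℂ) :
    Phi m σ M N f = St m σ M N m (rename (rc m some) f) := rfl

omit [Fintype σ] in
lemma Phi_inj (M N : ℕ → ℕ) : Function.Injective (Phi m σ M N) := by
  rw [← LinearMap.ker_eq_bot, LinearMap.ker_eq_bot']
  intro f hf
  by_contra h
  have h1 := St_ne M N h m le_rfl
  rw [← Phi_apply, hf, map_zero] at h1
  exact h1 rfl

omit [Fintype σ] in
lemma rho_St (ρ : MvPolynomial (Fin m × Option σ) ℂ →ₐ[ℂ] MvPolynomial (Fin m × Option σ) ℂ)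
    (h : ∀ a b x, ρ (EN m (Option σ) a b x) = EN m (Option σ) a b (ρ x))
    (hy : ∀ l, ρ (yv m σ l) = yv m σ l) (M N : ℕ → ℕ) (x : MvPolynomial (Fin m × Option σ) ℂ)
    (k : ℕ) : ρ (St m σ M N k x) = St m σ M N k (ρ x) := by
  induction k with
  | zero => rfl
  | succ k ih => rw [St, LinearMap.comp_apply, LinearMap.comp_apply, rho_TT ρ h hy, ih]

lemma Phi_mem {a : ℕ} {mu nu : Fin m → ℕ} (h1 : ∀ i, mu i ≤ nu i)
    (h2 : ∀ i j : Fin m, (i : ℕ) + 1 = j → nu j ≤ mu i) (h3 : ∑ i, nu i = ∑ i, mu i + a)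
    {d0 : σ → ℕ} (hd0 : ∀ j, d0 j ≠ a) {f : MvPolynomial (Fin m × σ) ℂ} (hf : f ∈ PK m σ d0 mu) :
    Phi m σ (T4.ex mu) (T4.ex nu) f ∈ PK m (Option σ) (dd d0 a) nu := by
  classical
  obtain ⟨hf1, hf2, hf3⟩ := hf
  have hM : ∀ i, i < m → T4.ex mu i ≤ T4.ex nu i := by
    intro i hi
    rw [T4.ex, T4.ex, dif_pos hi, dif_pos hi]
    exact h1 _
  have hN : ∀ l i, l < i → i < m → T4.ex nu i ≤ T4.ex mu l := by
    have key : ∀ e l, l + 1 + e < m → T4.ex nu (l + 1 + e) ≤ T4.ex mu l := by
      intro e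
      induction e with
      | zero =>
        intro l hl
        have h4 := h2 ⟨l, by omega⟩ ⟨l + 1 + 0, hl⟩ rfl
        rw [T4.ex, T4.ex, dif_pos hl, dif_pos (by omega)]
        exact h4
      | succ e ih =>
        intro l hl
        have h4 := ih (l + 1) (by omega)
        have h5 := hM (l + 1) (by omega)
        have h6 := h2 ⟨l, by omega⟩ ⟨l + 1, by omega⟩ rfl
        have e1 : l + 1 + 1 + e = l + 1 + (e + 1) := by omega
        rw [e1] at h4
        have h7 : T4.ex nu (l + 1) ≤ T4.ex mu l := by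
          rw [T4.ex, T4.ex, dif_pos (by omega), dif_pos (by omega)]
          exact h6
        omega
    intro l i hl hi
    have h4 := key (i - (l + 1)) l (by omega)
    have e1 : l + 1 + (i - (l + 1)) = i := by omega
    rw [e1] at h4
    exact h4
  rw [Phi_apply]
  refine ⟨?_, ?_, ?_⟩
  · rw [mem_T4_HW (θ := th m (T4.ex mu) (T4.ex nu) m) (fun i => by
      rw [th, if_pos (by omega), T4.ex, dif_pos i.2])]
    apply St_HW hM hN _ m le_rfl
    rw [← mem_T4_HW (nu := mu) (fun i => by rw [T4.ex, dif_pos i.2])]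
    exact SZR5b.HW_rename some hf1
  · rw [← mem_PC]
    have h4 := St_PC (M := T4.ex mu) (N := T4.ex nu) (PC_rename (mem_PC.2 hf2)) m le_rfl
    have e : ∑ i ∈ Finset.Ico (m - m) m, (T4.ex nu i - T4.ex mu i) = a := by
      rw [Nat.sub_self, ← Finset.range_eq_Ico, Finset.sum_range]
      have e1 : ∑ i : Fin m, (T4.ex nu i - T4.ex mu i) + ∑ i, mu i = ∑ i, nu i := by
        rw [← Finset.sum_add_distrib]
        refine Finset.sum_congr rfl (fun i _ => ?_)
        rw [T4.ex, T4.ex, dif_pos i.2, dif_pos i.2]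
        have := h1 i
        exact Nat.sub_add_cancel this
      omega
    rw [e] at h4
    exact h4
  · intro e he
    have h4 : e none = none := by
      rcases h5 : e none with _ | j
      · rfl
      · have h6 := he none
        rw [h5] at h6
        exact absurd h6 (hd0 j)
    have h5 : ∀ j, ∃ j', e (some j) = some j' := by
      intro j
      rcases h6 : e (some j) with _ | j'
      · have := e.injective (h6.trans h4.symm)
        simp at this
      · exact ⟨j', rfl⟩
    choose g hg using h5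
    have hgi : Function.Injective g := fun i j hij =>
      Option.some_injective _ (e.injective (by rw [hg, hg, hij]))
    let p : Equiv.Perm σ := Equiv.ofBijective g (Finite.injective_iff_bijective.1 hgi)
    have h6 := hf3 p (fun j => by
      have h7 := he (some j)
      rw [hg] at h7
      exact h7)
    change rename (rc m p) f = f at h6
    change rename (rc m e) _ = _
    rw [rho_St (rename (rc m e)) (fun a b x => rho_EN _ a b x) (fun l => by
      rw [yv]
      split_ifs with h
      · rw [rename_X, rc, h4]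
      · exact map_zero _), rename_rename]
    have h7 : rc m (⇑e) ∘ rc m some = rc m (some : σ → Option σ) ∘ rc m (⇑p) := by
      funext v
      simp only [rc, Function.comp_apply, Prod.mk.injEq, true_and]
      exact hg v.2
    rw [h7, ← rename_rename, h6]

lemma finrank_strip {a : ℕ} {mu nu : Fin m → ℕ} (h1 : ∀ i, mu i ≤ nu i)
    (h2 : ∀ i j : Fin m, (i : ℕ) + 1 = j → nu j ≤ mu i) (h3 : ∑ i, nu i = ∑ i, mu i + a)
    (d0 : σ → ℕ) (hd0 : ∀ j, d0 j ≠ a) :
    Module.finrank ℂ (PK m σ d0 mu) ≤ Module.finrank ℂ (PK m (Option σ) (dd d0 a) nu) := by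
  have hle : PK m (Option σ) (dd d0 a) nu ≤ T4.HW m (Option σ) nu := fun f hf => hf.1
  have : FiniteDimensional ℂ (PK m (Option σ) (dd d0 a) nu) :=
    Submodule.finiteDimensional_of_le hle
  rw [← LinearMap.finrank_range_of_inj
    (f := (Phi m σ (T4.ex mu) (T4.ex nu)).domRestrict (PK m σ d0 mu))
    (fun f g h => Subtype.ext (Phi_inj _ _ h))]
  apply Submodule.finrank_mono
  rintro _ ⟨⟨f, hf⟩, rfl⟩
  exact Phi_mem h1 h2 h3 hd0 hf

end main

/-- **The strip.** -/
theorem strip_s : ∀ (m a : ℕ) (mu nu : Fin m → ℕ) (k : Multiset ℕ), (∀ i, mu i ≤ nu i) →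
    (∀ i j : Fin m, (i : ℕ) + 1 = j → nu j ≤ mu i) → ∑ i, nu i = ∑ i, mu i + a → a ∉ k →
    nn m mu k ≤ nn m nu (a ::ₘ k) := by
  intro m a mu nu k h1 h2 h3 hk
  have h4 := finrank_strip (σ := Fin k.toList.length) h1 h2 h3 (fun j => k.toList.get j)
    (fun j h => hk (h ▸ Multiset.mem_toList.1 (List.get_mem _ _)))
  have h5 : nn m mu k = Module.finrank ℂ
      (PK m (Fin k.toList.length) (fun j => k.toList.get j) mu) := rfl
  have h6 : nn m nu (a ::ₘ k) = nn m nu ((a ::ₘ k).filter (0 < ·)) := by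
    conv_lhs => rw [nn]
    rw [SZT0.transS, map_get]
  have h7 : (Finset.univ.val.map (dd (fun j : Fin k.toList.length => k.toList.get j) a) :
      Multiset ℕ) = a ::ₘ k := by
    rw [map_univ_val, Fintype.sum_option]
    simp only [dd, Option.elim]
    rw [← map_univ_val (fun j : Fin k.toList.length => k.toList.get j), map_get,
      Multiset.singleton_add]
  rw [h5, h6]
  refine h4.trans (le_of_eq ?_)
  rw [SZT0.transS, h7]

end Vale.Agent.P181.H467
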