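import Vale.Agent.P181.PL.Defs
import Vale.Agent.P181.H467.Strip

set_option autoImplicit false

/-!
# P181, PL, P1: Pieri
-/

namespace Vale.Agent.P181.H467

/-- **(P1)** -/
theorem pieS : PL.PieS := by
  intro m x mu nu k _ hk h1 h2 h3
  refine strip_s m x mu nu k h1 (fun i j hij => ?_) h3 hk
  have h4 := h2 i
  rw [hij, T4.ex, dif_pos j.2] at h4
  exact h4

end Vale.Agent.P181.H467
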